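import Mathlib
import Vale.Agent.Lib.P262.Lower
import Vale.Agent.Lib.P262.Cert
import Vale.Agent.Lib.P262.Signs

open scoped RealInnerProductSpace

namespace Vale.Agent.Results.P262.BeyondSqrtSucc

open Vale.Agent.Lib.P262

/-- Lower bound `sigma(d) >= sqrt(d + 1.39)` for the signed-prefix constant, `d >= 3`:
there is a finite sequence `v_1, ..., v_N` in the Euclidean unit ball of `R^d` such that every
choice of signs has a prefix sum of norm at least `sqrt(d + 139/100)`. -/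
theorem result (d : ℕ) (hd : 3 ≤ d) :
    ∃ (N : ℕ) (v : Fin N → EuclideanSpace ℝ (Fin d)), (∀ i, ‖v i‖ ≤ 1) ∧
      ∀ ε : Fin N → ℝ, (∀ i, ε i = 1 ∨ ε i = -1) →
        ∃ k : ℕ, k ≤ N ∧
          Real.sqrt ((d : ℝ) + 139 / 100)
            ≤ ‖∑ i ∈ Finset.univ.filter (fun i : Fin N => (i : ℕ) < k), ε i • v i‖ := by
  obtain ⟨m, rfl⟩ : ∃ m, d = m + 3 := ⟨d - 3, by omega⟩
  -- the orthonormal sequence
  set e : ℕ → EuclideanSpace ℝ (Fin (m + 3)) :=
    fun i => if h : i < m + 3 then EuclideanSpace.single ⟨i, h⟩ (1 : ℝ) else 0 with he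
  have he1 : ∀ i, i < m + 3 → ‖e i‖ = 1 := by
    intro i hi
    simp [he, hi]
  have he0 : ∀ i j, i < m + 3 → j < m + 3 → i ≠ j → ⟪e i, e j⟫ = 0 := by
    intro i j hi hj hij
    simp [he, hi, hj, EuclideanSpace.inner_single_left, hij]
  have hm0 : m < m + 3 := by omega
  have hm1 : m + 1 < m + 3 := by omega
  have hm2 : m + 2 < m + 3 := by omega
  set f1 := e m with hf1
  set f2 := e (m + 1) with hf2
  set f3 := e (m + 2) with hf3
  have h1 : ‖f1‖ = 1 := he1 m hm0
  have h2 : ‖f2‖ = 1 := he1 (m + 1) hm1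
  have h3 : ‖f3‖ = 1 := he1 (m + 2) hm2
  have h12 : ⟪f1, f2⟫ = 0 := he0 m (m + 1) hm0 hm1 (by omega)
  have h13 : ⟪f1, f3⟫ = 0 := he0 m (m + 2) hm0 hm2 (by omega)
  have h23 : ⟪f2, f3⟫ = 0 := he0 (m + 1) (m + 2) hm1 hm2 (by omega)
  set l : List (EuclideanSpace ℝ (Fin (m + 3))) :=
    (List.range m).map e ++ certList.map (emb f1 f2 f3 10000) with hl
  have hnorm : ∀ u ∈ l, ‖u‖ ≤ 1 := by
    intro u hu
    rw [hl, List.mem_append] at hu
    rcases hu with hu | hu
    · rw [List.mem_map] at hu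
      obtain ⟨i, hi, rfl⟩ := hu
      rw [List.mem_range] at hi
      exact (he1 i (by omega)).le
    · rw [List.mem_map] at hu
      obtain ⟨w, hw, rfl⟩ := hu
      exact norm_emb_le f1 f2 f3 h1 h2 h3 h12 h13 h23 10000 (by norm_num) 100000000
        (by norm_num) w (certList_norm w hw)
  have hF : Forced ((m : ℝ) + 439 / 100) (0 : EuclideanSpace ℝ (Fin (m + 3))) l := by
    rw [hl]
    apply forced_append
    refine allEnds_mono ?_ _ _ (allEnds_basis e (m + 3) he1 he0 m (by omega))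
    intro q hq
    obtain ⟨hq1, hq2⟩ := hq
    have hqf1 : ⟪q, f1⟫ = 0 := by rw [real_inner_comm]; exact hq2 m (le_refl _) hm0
    have hqf2 : ⟪q, f2⟫ = 0 := by rw [real_inner_comm]; exact hq2 (m + 1) (by omega) hm1
    have hqf3 : ⟪q, f3⟫ = 0 := by rw [real_inner_comm]; exact hq2 (m + 2) (by omega) hm2
    have := forcedZ_sound f1 f2 f3 h1 h2 h3 h12 h13 h23 10000 (by norm_num) 439000000 q
      hqf1 hqf2 hqf3 certList (0, 0, 0) certList_forced
    rw [emb_zero, add_zero, hq1] at this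
    have hval : ((439000000 : ℤ) : ℝ) / (10000 : ℝ) ^ 2 = 439 / 100 := by norm_num
    rw [hval] at this
    exact this
  refine exists_of_forced l hnorm _ hF _ ?_
  rw [Real.sq_sqrt (by positivity)]
  push_cast
  linarith

end Vale.Agent.Results.P262.BeyondSqrtSucc
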