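import Mathlib
import Vale.Agent.Lib.P262.Lower

open scoped RealInnerProductSpace

namespace Vale.Agent.Results.P262.LowerBoundSqrtSucc

open Vale.Agent.Lib.P262

/-- Lower bound `sigma(d) >= sqrt(d+1)` for the signed-prefix constant, `d >= 2`:
for every real `s < sqrt(d+1)` there is a finite sequence `v_1, ..., v_N` in the Euclidean unit
ball of `R^d` such that every choice of signs has a prefix sum of norm greater than `s`. -/
theorem result (d : ℕ) (hd : 2 ≤ d) (s : ℝ) (hs : s < Real.sqrt ((d : ℝ) + 1)) :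
    ∃ (N : ℕ) (v : Fin N → EuclideanSpace ℝ (Fin d)), (∀ i, ‖v i‖ ≤ 1) ∧
      ∀ ε : Fin N → ℝ, (∀ i, ε i = 1 ∨ ε i = -1) →
        ∃ k : ℕ, k ≤ N ∧
          s < ‖∑ i ∈ Finset.univ.filter (fun i : Fin N => (i : ℕ) < k), ε i • v i‖ := by
  by_cases hs0 : s < 0
  · refine ⟨0, fun i => 0, fun i => by simp, fun ε _ => ⟨0, le_refl _, ?_⟩⟩
    simpa using hs0
  have hs0 : 0 ≤ s := not_lt.mp hs0
  obtain ⟨m, rfl⟩ : ∃ m, d = m + 2 := ⟨d - 2, by omega⟩
  have hs2 : s ^ 2 < ((m + 2 : ℕ) : ℝ) + 1 := (Real.lt_sqrt hs0).mp hs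
  obtain ⟨n, hn⟩ : ∃ n : ℕ, (1 / 2 : ℝ) ^ n < ((m + 2 : ℕ) : ℝ) + 1 - s ^ 2 :=
    exists_pow_lt_of_lt_one (by linarith) (by norm_num)
  -- the orthonormal sequence
  set e : ℕ → EuclideanSpace ℝ (Fin (m + 2)) :=
    fun i => if h : i < m + 2 then EuclideanSpace.single ⟨i, h⟩ (1 : ℝ) else 0 with he
  have he1 : ∀ i, i < m + 2 → ‖e i‖ = 1 := by
    intro i hi
    simp [he, hi]
  have he0 : ∀ i j, i < m + 2 → j < m + 2 → i ≠ j → ⟪e i, e j⟫ = 0 := by
    intro i j hi hj hij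
    simp [he, hi, hj, EuclideanSpace.inner_single_left, hij]
  obtain ⟨l, hl, hF⟩ := exists_forced e m he1 he0 n
  refine ⟨l.length, fun i => l.get i, fun i => hl _ (List.get_mem l i), ?_⟩
  intro ε hε
  set ε' : ℕ → ℝ := fun i => if h : i < l.length then ε ⟨i, h⟩ else 1 with hε'
  have hε'1 : ∀ i, ε' i = 1 ∨ ε' i = -1 := by
    intro i
    by_cases h : i < l.length
    · simp only [hε', h, dif_pos]; exact hε _
    · simp [hε', h]
  obtain ⟨k, hk, hk'⟩ := forced_signs l 0 hF ε' hε'1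
  refine ⟨k, hk, ?_⟩
  have hsum : ∑ i ∈ Finset.univ.filter (fun i : Fin l.length => (i : ℕ) < k), ε i • l.get i
      = ∑ i ∈ Finset.range k, ε' i • l.getD i 0 := by
    rw [Finset.sum_filter]
    have h1 := Fin.sum_univ_eq_sum_range
      (fun j => if j < k then ε' j • l.getD j 0 else 0) l.length
    have h2 : ∀ i : Fin l.length, (if (i : ℕ) < k then ε i • l.get i else 0)
        = (fun j => if j < k then ε' j • l.getD j 0 else 0) (i : ℕ) := by
      intro i
      have : ε' (i : ℕ) = ε i := by simp [hε']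
      simp [this]
    rw [Finset.sum_congr rfl (fun i _ => h2 i), h1, ← Finset.sum_filter]
    congr 1
    ext i
    simp only [Finset.mem_filter, Finset.mem_range]
    omega
  rw [hsum]
  rw [zero_add] at hk'
  have hτ : s ^ 2 < ((m : ℝ) + 3 - (1 / 2 : ℝ) ^ n) := by
    push_cast at hn hs2 ⊢
    linarith
  by_contra hcon
  have hcon := not_lt.mp hcon
  have h0 : 0 ≤ ‖∑ i ∈ Finset.range k, ε' i • l.getD i 0‖ := norm_nonneg _
  nlinarith

end Vale.Agent.Results.P262.LowerBoundSqrtSucc
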